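import Mathlib.LinearAlgebra.Alternating.Basic
import Mathlib.LinearAlgebra.Alternating.DomCoprod
import Mathlib.LinearAlgebra.Multilinear.Basic
import Mathlib.LinearAlgebra.Dual.Lemmas
import Mathlib.Algebra.Polynomial.Roots
import Mathlib.Algebra.Polynomial.Eval.Algebra
import Mathlib.RingTheory.SimpleModule.Basic

/-!
# Capelli expressions

`cap r b = ∑_σ sgn σ r^σ(0) b_1 r^σ(1) ... b_d r^σ(d)`.
-/

namespace P199U

open Equiv Polynomial

/-- The Capelli expression of the powers `1, r, …, r^d`. -/
def cap {A : Type*} [Ring A] {d : ℕ} (r : A) (b : Fin d → A) : A :=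
  ∑ σ : Perm (Fin (d + 1)), (Perm.sign σ : ℤ) • (r ^ ((σ 0 : Fin (d + 1)) : ℕ) *
    (List.ofFn fun i : Fin d => b i * r ^ ((σ i.succ : Fin (d + 1)) : ℕ)).prod)

theorem map_cap {A B : Type*} [Ring A] [Ring B] (φ : A →+* B) {d : ℕ} (r : A) (b : Fin d → A) :
    φ (cap r b) = cap (φ r) (fun i => φ (b i)) := by
  unfold cap
  rw [map_sum]
  refine Finset.sum_congr rfl fun σ _ => ?_
  rw [map_zsmul, map_mul, map_pow, map_list_prod, List.map_ofFn]
  congr 3
  congr 1
  funext i
  simp only [Function.comp_apply, map_mul, map_pow]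

theorem cap_eq_zero {F A : Type*} [Field F] [Ring A] [Algebra F A] {d : ℕ} {r : A}
    (h : ¬ LinearIndependent F (fun i : Fin (d + 1) => r ^ (i : ℕ))) (b : Fin d → A) :
    cap r b = 0 := by
  let m : MultilinearMap F (fun _ : Fin (d + 1) => A) A :=
    (MultilinearMap.mkPiAlgebraFin F (d + 1) A).compLinearMap
      (fun i => LinearMap.mulLeft F (Fin.cons (α := fun _ => A) 1 b i))
  have h1 := (MultilinearMap.alternatization m).map_linearDependent _ h
  rw [MultilinearMap.alternatization_apply] at h1
  rw [← h1]
  unfold cap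
  refine Finset.sum_congr rfl fun σ _ => ?_
  have h2 : m.domDomCongr σ (fun i : Fin (d + 1) => r ^ (i : ℕ)) =
      r ^ ((σ 0 : Fin (d + 1)) : ℕ) *
        (List.ofFn fun i : Fin d => b i * r ^ ((σ i.succ : Fin (d + 1)) : ℕ)).prod := by
    rw [MultilinearMap.domDomCongr_apply, MultilinearMap.compLinearMap_apply,
      MultilinearMap.mkPiAlgebraFin_apply, List.ofFn_succ, List.prod_cons]
    simp only [LinearMap.mulLeft_apply, Fin.cons_zero, Fin.cons_succ, one_mul]
  rw [h2]
  rfl

section multilinear

variable (K : Type*) {A : Type*} [Field K] [Ring A] [Algebra K A] {d : ℕ}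

/-- `cap` as a multilinear map in the coefficients -/
noncomputable def capL (r : A) : MultilinearMap K (fun _ : Fin d => A) A :=
  ∑ σ : Perm (Fin (d + 1)), (Perm.sign σ : ℤ) •
    ((LinearMap.mulLeft K (r ^ ((σ 0 : Fin (d + 1)) : ℕ))).compMultilinearMap
      ((MultilinearMap.mkPiAlgebraFin K d A).compLinearMap
        (fun i => LinearMap.mulRight K (r ^ ((σ i.succ : Fin (d + 1)) : ℕ)))))

theorem capL_apply (r : A) (b : Fin d → A) : capL K r b = cap r b := by
  unfold capL cap
  rw [sum_apply]
  refine Finset.sum_congr rfl fun σ _ => ?_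
  rfl

variable {K} in
theorem multilin_span {N : Type*} [AddCommGroup N] [Module K N]
    (f : MultilinearMap K (fun _ : Fin d => A) N) (s : Set A)
    (h : ∀ b : Fin d → A, (∀ i, b i ∈ s) → f b = 0) (b : Fin d → A)
    (hb : ∀ i, b i ∈ Submodule.span K s) : f b = 0 := by
  classical
  have key : ∀ (S : Finset (Fin d)) (b : Fin d → A), (∀ i ∈ S, b i ∈ Submodule.span K s) →
      (∀ i ∉ S, b i ∈ s) → f b = 0 := by
    intro S
    induction S using Finset.induction_on with
    | empty => exact fun b _ h2 => h b fun i => h2 i (Finset.notMem_empty i)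
    | insert j S hj ih =>
      intro b h1 h2
      have h3 : ∀ x ∈ Submodule.span K s, f (Function.update b j x) = 0 := by
        intro x hx
        induction hx using Submodule.span_induction with
        | mem x hx =>
          refine ih _ ?_ ?_
          · intro i hi
            have hne : i ≠ j := fun e => hj (e ▸ hi)
            rw [Function.update_of_ne hne]
            exact h1 i (Finset.mem_insert_of_mem hi)
          · intro i hi
            by_cases e : i = j
            · subst e; rw [Function.update_self]; exact hx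
            · rw [Function.update_of_ne e]
              exact h2 i (fun h' => (Finset.mem_insert.1 h').elim e hi)
        | zero => exact f.map_update_zero b j
        | add x y _ _ hx hy => rw [f.map_update_add, hx, hy, add_zero]
        | smul c x _ hx => rw [f.map_update_smul, hx, smul_zero]
      have h4 := h3 (b j) (h1 j (Finset.mem_insert_self j S))
      rwa [Function.update_eq_self] at h4
  exact key Finset.univ b (fun i _ => hb i) (fun i hi => absurd (Finset.mem_univ i) hi)

end multilinear

/-- a polynomial map of one variable that vanishes on an infinite set of scalars vanishes -/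
theorem cap_line {K A : Type*} [Field K] [Ring A] [Algebra K A] {d : ℕ} (t e : A)
    (b : Fin d → A) (S : Set K) (hS : S.Infinite)
    (h : ∀ c ∈ S, cap (t + c • e) b = 0) (c : K) : cap (t + c • e) b = 0 := by
  let ev : K → A[X] →+* A := fun c =>
    Polynomial.eval₂RingHom' (RingHom.id A) (algebraMap K A c) fun a => (Algebra.commutes c a).symm
  let H : A[X] := cap (C t + X * C e) (fun i => C (b i))
  have hev : ∀ c, ev c H = cap (t + c • e) b := by
    intro c
    have h1 := map_cap (ev c) (C t + X * C e) (fun i => C (b i))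
    have h2 : ∀ a : A, ev c (C a) = a := fun a => Polynomial.eval₂_C _ _
    have h3 : ev c (X : A[X]) = algebraMap K A c := Polynomial.eval₂_X _ _
    rw [map_add, map_mul, h2, h3, h2, ← Algebra.smul_def] at h1
    simp only [h2] at h1
    exact h1
  rw [← hev c, ← Module.forall_dual_apply_eq_zero_iff K]
  intro ℓ
  let q : K[X] := ∑ i ∈ Finset.range (H.natDegree + 1), C (ℓ (H.coeff i)) * X ^ i
  have hq : ∀ c, q.eval c = ℓ (ev c H) := by
    intro c
    have h1 : ev c H = ∑ i ∈ Finset.range (H.natDegree + 1),
        (c ^ i) • H.coeff i := by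
      have h2 : ev c H = Polynomial.eval₂ (RingHom.id A) (algebraMap K A c) H := rfl
      rw [h2, Polynomial.eval₂_eq_sum_range]
      refine Finset.sum_congr rfl fun i _ => ?_
      rw [RingHom.id_apply, ← map_pow, ← Algebra.commutes, Algebra.smul_def]
    rw [h1, map_sum, Polynomial.eval_finsetSum]
    refine Finset.sum_congr rfl fun i _ => ?_
    rw [map_smul, smul_eq_mul, Polynomial.eval_mul, Polynomial.eval_C, Polynomial.eval_pow,
      Polynomial.eval_X, mul_comm]
  have hq0 : q = 0 := by
    apply Polynomial.eq_zero_of_infinite_isRoot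
    refine hS.mono fun c hc => ?_
    show q.IsRoot c
    rw [Polynomial.IsRoot, hq, hev, h c hc, map_zero]
  rw [← hq c, hq0, Polynomial.eval_zero]

theorem prod_apply_eigen {K V : Type*} [Field K] [AddCommGroup V] [Module K V] {d : ℕ}
    (O : Fin d → Module.End K V) (ε : Fin d → K) (v : V) (h : ∀ i, O i v = ε i • v) :
    (List.ofFn O).prod v = (∏ i, ε i) • v := by
  induction d with
  | zero => simp
  | succ d ih =>
    rw [List.ofFn_succ, List.prod_cons, Module.End.mul_apply,
      ih (fun i => O i.succ) (fun i => ε i.succ) (fun i => h i.succ), map_smul, h 0,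
      Fin.prod_univ_succ, smul_smul, mul_comm]

/-- evaluation of the Capelli expression on a chain -/
theorem cap_chain {K V : Type*} [Field K] [AddCommGroup V] [Module K V] {d : ℕ}
    (t : Module.End K V) (b : Fin d → Module.End K V) (v : Fin (d + 1) → V)
    (ht : ∀ i : Fin (d + 1), (t ^ (i : ℕ)) (v 0) = v i)
    (hb : ∀ (i : Fin d) (j : Fin (d + 1)), b i (v j) = if j = i.succ then v 0 else 0) :
    cap t b (v 0) = v 0 := by
  classical
  unfold cap
  rw [LinearMap.sum_apply, Finset.sum_eq_single (1 : Perm (Fin (d + 1)))]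
  · have h1 : (List.ofFn fun i : Fin d => b i * t ^ (((1 : Perm (Fin (d + 1))) i.succ :
        Fin (d + 1)) : ℕ)).prod (v 0) = (∏ _i : Fin d, (1 : K)) • v 0 := by
      apply prod_apply_eigen
      intro i
      rw [Module.End.mul_apply, Perm.one_apply, ht, hb, if_pos rfl, one_smul]
    rw [Perm.sign_one, Units.val_one, one_smul, Module.End.mul_apply, h1, Finset.prod_const_one,
      one_smul, Perm.one_apply, ht]
  · intro σ _ hσ
    have h1 : (List.ofFn fun i : Fin d => b i * t ^ ((σ i.succ : Fin (d + 1)) : ℕ)).prod (v 0) =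
        (∏ i : Fin d, if σ i.succ = i.succ then (1 : K) else 0) • v 0 := by
      apply prod_apply_eigen
      intro i
      rw [Module.End.mul_apply, ht, hb]
      split_ifs
      · rw [one_smul]
      · rw [zero_smul]
    have h2 : ∃ i : Fin d, σ i.succ ≠ i.succ := by
      by_contra hc
      push Not at hc
      apply hσ
      ext i
      congr 1
      refine Fin.cases ?_ (fun j => ?_) i
      · rw [Perm.one_apply]
        by_contra h0
        obtain ⟨j, hj⟩ := Fin.exists_succ_eq.2 h0
        have h3 := hc j
        rw [hj] at h3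
        exact h0 (σ.injective h3)
      · rw [Perm.one_apply]; exact hc j
    obtain ⟨i, hi⟩ := h2
    have h3 : (∏ i : Fin d, if σ i.succ = i.succ then (1 : K) else 0) = 0 :=
      Finset.prod_eq_zero (Finset.mem_univ i) (if_neg hi)
    rw [LinearMap.smul_apply, Module.End.mul_apply, h1, h3, zero_smul, map_zero, smul_zero]
  · exact fun h => absurd (Finset.mem_univ _) h

end P199U
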