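import Vale.Agent.P199.H615.Cap
import Mathlib.LinearAlgebra.Basis.VectorSpace
import Mathlib.LinearAlgebra.FiniteDimensional.Lemmas
import Mathlib.Algebra.Ring.Subring.Basic
import Mathlib.Order.Zorn
import Mathlib.Tactic.NoncommRing

/-!
# Unbounded degrees in subrings of infinite-dimensional division rings
-/

namespace P199U

section density

variable {K D : Type*} [Field K] [DivisionRing D] [Module K D]
  (hcomm : ∀ (k : K) (a v : D), k • (a * v) = a * (k • v))

/-- left multiplications as `K`-linear maps -/
noncomputable def Lm : D →+* Module.End K D where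
  toFun a :=
    { toFun := fun v => a * v
      map_add' := fun v w => mul_add a v w
      map_smul' := fun k v => (hcomm k a v).symm }
  map_one' := LinearMap.ext fun v => one_mul v
  map_mul' a b := LinearMap.ext fun v => mul_assoc a b v
  map_zero' := LinearMap.ext fun v => zero_mul v
  map_add' a b := LinearMap.ext fun v => add_mul a b v

@[simp] theorem Lm_apply (a v : D) : Lm hcomm a v = a * v := rfl

/-- the algebra of operators generated by `K` and the left multiplications -/
noncomputable def Top : Subalgebra K (Module.End K D) :=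
  Algebra.adjoin K (Set.range (Lm hcomm))

theorem mem_Top (t : Module.End K D) :
    t ∈ Top hcomm ↔ t ∈ Submodule.span K (Set.range (Lm hcomm)) := by
  have h1 : Subalgebra.toSubmodule (Top hcomm) = Submodule.span K (Set.range (Lm hcomm)) := by
    unfold Top
    rw [Algebra.adjoin_eq_span]
    congr 1
    have h2 : Set.range (Lm hcomm) = ((MonoidHom.mrange (Lm hcomm : D →* Module.End K D) :
        Submonoid _) : Set (Module.End K D)) := rfl
    rw [h2, Submonoid.closure_eq]
  rw [← h1]
  exact Iff.rfl

theorem simple_Top : IsSimpleModule (Top hcomm) D := by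
  rw [isSimpleModule_iff_toSpanSingleton_surjective]
  refine ⟨inferInstance, fun v hv w => ?_⟩
  refine ⟨⟨Lm hcomm (w * v⁻¹), Algebra.subset_adjoin ⟨_, rfl⟩⟩, ?_⟩
  show (w * v⁻¹) * v = w
  rw [mul_assoc, inv_mul_cancel₀ hv, mul_one]

/-- density -/
theorem density (hmax : ∀ c : D, (∀ (k : K) (v : D), (k • v) * c = k • (v * c)) →
      ∃ κ : K, ∀ v, v * c = κ • v)
    (g : Module.End K D) (s : Finset D) :
    ∃ t ∈ Submodule.span K (Set.range (Lm hcomm)), ∀ m ∈ s, t m = g m := by
  have hsim := simple_Top hcomm
  have key : ∀ φ : Module.End (Top hcomm) D, ∃ κ : K, ∀ v, φ v = κ • v := by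
    intro φ
    have h1 : ∀ v, φ v = v * φ 1 := by
      intro v
      have h2 := φ.map_smul (⟨Lm hcomm v, Algebra.subset_adjoin ⟨_, rfl⟩⟩ : Top hcomm) (1 : D)
      have h3 : (⟨Lm hcomm v, Algebra.subset_adjoin ⟨_, rfl⟩⟩ : Top hcomm) • (1 : D) = v :=
        mul_one v
      rw [h3] at h2
      exact h2
    obtain ⟨κ, hκ⟩ := hmax (φ 1) (by
      intro k v
      have h2 := φ.map_smul (algebraMap K (Top hcomm) k) v
      have h3 : ∀ w : D, (algebraMap K (Top hcomm) k) • w = k • w := fun w => rfl
      rw [h3, h3, h1, h1 v] at h2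
      exact h2)
    exact ⟨κ, fun v => (h1 v).trans (hκ v)⟩
  let f : Module.End (Module.End (Top hcomm) D) D :=
    { toFun := g
      map_add' := g.map_add
      map_smul' := by
        intro φ v
        obtain ⟨κ, hκ⟩ := key φ
        show g (φ v) = φ (g v)
        rw [hκ, hκ, map_smul] }
  obtain ⟨t, ht⟩ := jacobson_density (R := Top hcomm) (M := D) f s
  refine ⟨t.1, (mem_Top hcomm _).1 t.2, fun m hm => ?_⟩
  exact (ht m hm).symm

theorem exists_linear {m : ℕ} {v : Fin m → D} (hv : LinearIndependent K v) (w : Fin m → D) :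
    ∃ g : Module.End K D, ∀ i, g (v i) = w i := by
  obtain ⟨g, hg⟩ := LinearMap.exists_extend ((Module.Basis.span hv).constr K w)
  refine ⟨g, fun i => ?_⟩
  have h1 := congrArg (fun f => f (Module.Basis.span hv i)) hg
  simp only [LinearMap.comp_apply, Submodule.subtype_apply, Module.Basis.constr_basis] at h1
  rwa [Module.Basis.span_apply] at h1

/-- subrings spanning `D` have nonvanishing Capelli expressions -/
theorem cap_ne_zero_of_li (hmax : ∀ c : D, (∀ (k : K) (v : D), (k • v) * c = k • (v * c)) →
      ∃ κ : K, ∀ v, v * c = κ • v)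
    (R : Subring D) (hR : ∀ a : D, Lm hcomm a ∈ Submodule.span K (Lm hcomm '' (R : Set D)))
    (S : Set K) (hS : S.Infinite) (hSR : ∀ c ∈ S, ∃ s ∈ R, ∀ v : D, c • v = s * v)
    {d : ℕ} {v : Fin (d + 1) → D} (hv : LinearIndependent K v) :
    ∃ r ∈ R, ∃ b : Fin d → D, (∀ i, b i ∈ R) ∧ cap r b ≠ 0 := by
  by_contra hcon
  push Not at hcon
  -- step 1
  have h1 : ∀ r ∈ R, ∀ b : Fin d → Module.End K D,
      (∀ i, b i ∈ Submodule.span K (Lm hcomm '' (R : Set D))) → cap (Lm hcomm r) b = 0 := by
    intro r hr b hb
    rw [← capL_apply K]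
    refine multilin_span _ (Lm hcomm '' (R : Set D)) ?_ b hb
    intro b hb
    choose b' hb' hb'' using hb
    rw [capL_apply]
    have h2 := hcon r hr b' hb'
    have h3 := map_cap (Lm hcomm) r b'
    rw [h2, map_zero] at h3
    have h4 : b = fun i => Lm hcomm (b' i) := funext fun i => (hb'' i).symm
    rw [h4]
    exact h3.symm
  -- step 2
  have h2 : ∀ t ∈ Submodule.span K (Lm hcomm '' (R : Set D)), ∀ u : Module.End K D,
      (∀ r ∈ R, ∀ b : Fin d → Module.End K D,
        (∀ i, b i ∈ Submodule.span K (Lm hcomm '' (R : Set D))) →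
          cap (u + Lm hcomm r) b = 0) →
      (∀ r ∈ R, ∀ b : Fin d → Module.End K D,
        (∀ i, b i ∈ Submodule.span K (Lm hcomm '' (R : Set D))) →
          cap (u + t + Lm hcomm r) b = 0) := by
    intro t ht
    induction ht using Submodule.closure_induction with
    | zero => intro u hu r hr b hb; rw [add_zero]; exact hu r hr b hb
    | add x y _ _ hx hy =>
      intro u hu r hr b hb
      rw [← add_assoc]
      exact hy (u + x) (hx u hu) r hr b hb
    | smul_mem k x hx =>
      obtain ⟨r1, hr1, rfl⟩ := hx
      intro u hu r hr b hb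
      have h3 := cap_line (u + Lm hcomm r) (Lm hcomm r1) b S hS (by
        intro c hc
        obtain ⟨s, hs, hcs⟩ := hSR c hc
        have h4 : c • Lm hcomm r1 = Lm hcomm (s * r1) := by
          apply LinearMap.ext
          intro w
          rw [LinearMap.smul_apply, Lm_apply, Lm_apply, hcs, mul_assoc]
        rw [h4, add_assoc, ← map_add]
        exact hu _ (R.add_mem hr (R.mul_mem hs hr1)) b hb) k
      rw [add_right_comm]
      exact h3
  have h3 : ∀ t ∈ Submodule.span K (Lm hcomm '' (R : Set D)), ∀ b : Fin d → Module.End K D,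
      (∀ i, b i ∈ Submodule.span K (Lm hcomm '' (R : Set D))) → cap t b = 0 := by
    intro t ht b hb
    have h4 := h2 t ht 0 (by
      intro r hr b hb
      rw [zero_add]
      exact h1 r hr b hb) 0 R.zero_mem b hb
    rwa [zero_add, map_zero, add_zero] at h4
  have hsp : Submodule.span K (Set.range (Lm hcomm)) ≤
      Submodule.span K (Lm hcomm '' (R : Set D)) := by
    rw [Submodule.span_le]
    rintro _ ⟨a, rfl⟩
    exact hR a
  classical
  -- the chain
  obtain ⟨gt, hgt⟩ := exists_linear hv (fun i => if h : (i : ℕ) + 1 < d + 1 then v ⟨i + 1, h⟩ else 0)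
  obtain ⟨t, ht, ht'⟩ := density hcomm hmax gt (Finset.univ.image v)
  have hb : ∀ i : Fin d, ∃ b ∈ Submodule.span K (Set.range (Lm hcomm)),
      ∀ j, b (v j) = if j = i.succ then v 0 else 0 := by
    intro i
    obtain ⟨g, hg⟩ := exists_linear hv (fun j => if j = i.succ then v 0 else 0)
    obtain ⟨b, hb, hb'⟩ := density hcomm hmax g (Finset.univ.image v)
    refine ⟨b, hb, fun j => ?_⟩
    rw [hb' _ (Finset.mem_image_of_mem v (Finset.mem_univ j)), hg]
  choose b hbs hb' using hb
  have hpow : ∀ (n : ℕ) (hn : n < d + 1), (t ^ n) (v 0) = v ⟨n, hn⟩ := by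
    intro n
    induction n with
    | zero => intro hn; rfl
    | succ n ih =>
      intro hn
      rw [pow_succ', Module.End.mul_apply, ih (by omega),
        ht' _ (Finset.mem_image_of_mem v (Finset.mem_univ _)), hgt, dif_pos hn]
  have h5 := cap_chain (K := K) t b v (fun i => hpow i i.2) hb'
  rw [h3 t (hsp ht) b (fun i => hsp (hbs i)), LinearMap.zero_apply] at h5
  exact hv.ne_zero 0 h5.symm

end density

section maxfield

variable {D : Type*} [DivisionRing D]

/-- `∑ a_i v d_i = 0` for all `v` forces `d_i = 0` if the `a_i` are independent over the center -/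
theorem mul_indep {ι : Type*} {a : ι → D} (ha : LinearIndependent (Subring.center D) a) :
    ∀ (s : Finset ι) (e : ι → D), (∀ v : D, ∑ i ∈ s, a i * v * e i = 0) → ∀ i ∈ s, e i = 0 := by
  classical
  intro s
  induction s using Finset.strongInduction with
  | H s ih =>
    intro e he i hi
    by_contra hne
    -- all quotients are central
    have hcen : ∀ j ∈ s, e j * (e i)⁻¹ ∈ Subring.center D := by
      intro j hj
      rw [Subring.mem_center_iff]
      intro c
      by_cases hji : j = i
      · subst hji; rw [mul_inv_cancel₀ hne, mul_one, one_mul]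
      · have h1 : ∀ v : D, ∑ j ∈ s.erase i,
            a j * v * (e j * (e i)⁻¹ * c - c * (e j * (e i)⁻¹)) = 0 := by
          intro v
          have h2 : ∑ j ∈ s, a j * v * (e j * (e i)⁻¹ * c - c * (e j * (e i)⁻¹)) =
              (∑ j ∈ s, a j * v * e j) * ((e i)⁻¹ * c) -
                (∑ j ∈ s, a j * (v * c) * e j) * (e i)⁻¹ := by
            rw [Finset.sum_mul, Finset.sum_mul, ← Finset.sum_sub_distrib]
            refine Finset.sum_congr rfl fun j _ => ?_
            noncomm_ring
          rw [he v, he (v * c), zero_mul, zero_mul, sub_zero, ← Finset.add_sum_erase s _ hi,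
            mul_inv_cancel₀ hne, one_mul, mul_one, sub_self, mul_zero, zero_add] at h2
          exact h2
        have h3 := ih (s.erase i) (Finset.erase_ssubset hi) _ h1 j
          (Finset.mem_erase.2 ⟨hji, hj⟩)
        exact (sub_eq_zero.1 h3).symm
    have h4 : ∑ j ∈ s.attach, (⟨e j * (e i)⁻¹, hcen j j.2⟩ : Subring.center D) • a j = 0 := by
      have h5 := he 1
      have h6 : (∑ j ∈ s, a j * 1 * e j) * (e i)⁻¹ = 0 := by rw [h5, zero_mul]
      rw [Finset.sum_mul, ← Finset.sum_attach] at h6
      rw [← h6]
      refine Finset.sum_congr rfl fun j _ => ?_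
      show (e j * (e i)⁻¹) * a j = a j * 1 * e j * (e i)⁻¹
      have h7 := Subring.mem_center_iff.1 (hcen j j.2) (a j)
      rw [mul_one, mul_assoc (a j), h7]
    have h8 : LinearIndependent (Subring.center D) (fun j : s => a j) :=
      ha.comp _ Subtype.val_injective
    rw [Fintype.linearIndependent_iff] at h8
    have h9 := h8 (fun j => ⟨e j * (e i)⁻¹, hcen j j.2⟩) (by
      rw [← h4]; rfl) ⟨i, hi⟩
    have h10 : e i * (e i)⁻¹ = 0 := congrArg Subtype.val h9
    rw [mul_inv_cancel₀ hne] at h10
    exact one_ne_zero h10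

/-- a maximal commutative subset -/
theorem exists_max_comm (D : Type*) [DivisionRing D] :
    ∃ M : Set D, (∀ a ∈ M, ∀ b ∈ M, a * b = b * a) ∧
      ∀ c : D, (∀ a ∈ M, c * a = a * c) → c ∈ M := by
  obtain ⟨M, hM⟩ := zorn_subset {M : Set D | ∀ a ∈ M, ∀ b ∈ M, a * b = b * a} (by
    intro C hC hchain
    refine ⟨⋃₀ C, ?_, fun s hs => Set.subset_sUnion_of_mem hs⟩
    rintro a ⟨s, hs, has⟩ b ⟨t, ht, hbt⟩
    rcases hchain.total hs ht with h | h
    · exact hC ht a (h has) b hbt
    · exact hC hs a has b (h hbt))
  refine ⟨M, hM.1, fun c hc => ?_⟩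
  have h1 : insert c M ∈ {M : Set D | ∀ a ∈ M, ∀ b ∈ M, a * b = b * a} := by
    rintro a (rfl | ha) b (rfl | hb)
    · rfl
    · exact hc b hb
    · exact (hc a ha).symm
    · exact hM.1 a ha b hb
  exact hM.2 h1 (Set.subset_insert c M) (Set.mem_insert c M)

/-- `D` as a vector space over `K` acting by multiplications on the right -/
@[reducible] def rmod {K : Type*} [Field K] (κ : K →+* D) : Module K D where
  smul k v := v * κ k
  one_smul v := by show v * κ 1 = v; rw [map_one, mul_one]
  mul_smul k l v := by
    show v * κ (k * l) = (v * κ l) * κ k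
    rw [mul_comm k l, map_mul, mul_assoc]
  smul_zero k := zero_mul _
  smul_add k v w := add_mul v w _
  add_smul k l v := by show v * κ (k + l) = v * κ k + v * κ l; rw [map_add, mul_add]
  zero_smul v := by show v * κ 0 = 0; rw [map_zero, mul_zero]

theorem exists_cap_abs {K : Type*} [Field K] (κ : K →+* D)
    (hκ : ∀ c : D, (∀ k, c * κ k = κ k * c) → ∃ k, κ k = c)
    (hinf : ¬ Module.Finite (Subring.center D) D) (R : Subring D)
    (hR : Submodule.span (Subring.center D) (R : Set D) = ⊤) (S : Set D) (hS : S.Infinite)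
    (hSR : S ⊆ R) (hSc : S ⊆ Subring.center D) (d : ℕ) :
    ∃ r ∈ R, ∃ b : Fin d → D, (∀ i, b i ∈ R) ∧ cap r b ≠ 0 := by
  letI := rmod κ
  have hsm : ∀ (k : K) (v : D), k • v = v * κ k := fun _ _ => rfl
  have hcomm : ∀ (k : K) (a v : D), k • (a * v) = a * (k • v) := by
    intro k a v
    rw [hsm, hsm, mul_assoc]
  have hmax : ∀ c : D, (∀ (k : K) (v : D), (k • v) * c = k • (v * c)) →
      ∃ κ : K, ∀ v, v * c = κ • v := by
    intro c hc
    obtain ⟨k, hk⟩ := hκ c (by
      intro k
      have h1 := hc k 1
      rw [hsm, hsm, one_mul, one_mul] at h1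
      exact h1.symm)
    exact ⟨k, fun v => by rw [hsm, hk]⟩
  have hcen : ∀ z ∈ Subring.center D, ∃ k, κ k = z := fun z hz =>
    hκ z fun k => ((Subring.mem_center_iff.1 hz) (κ k)).symm
  have hR' : ∀ a : D, Lm hcomm a ∈ Submodule.span K (Lm hcomm '' (R : Set D)) := by
    intro a
    have ha : a ∈ Submodule.span (Subring.center D) (R : Set D) := hR ▸ Submodule.mem_top
    induction ha using Submodule.span_induction with
    | mem x hx => exact Submodule.subset_span ⟨x, hx, rfl⟩
    | zero => rw [map_zero]; exact Submodule.zero_mem _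
    | add x y _ _ hx hy => rw [map_add]; exact Submodule.add_mem _ hx hy
    | smul z x _ hx =>
      obtain ⟨k, hk⟩ := hcen z z.2
      have h1 : Lm hcomm (z • x) = k • Lm hcomm x := by
        apply LinearMap.ext
        intro v
        rw [LinearMap.smul_apply, Lm_apply, Lm_apply, hsm, hk]
        show ((z : D) * x) * v = x * v * z
        rw [mul_assoc, (Subring.mem_center_iff.1 z.2) (x * v)]
      rw [h1]
      exact Submodule.smul_mem _ _ hx
  have hS' : (κ ⁻¹' S).Infinite := by
    intro hfin
    apply hS
    refine (hfin.image κ).subset ?_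
    intro z hz
    obtain ⟨k, hk⟩ := hcen z (hSc hz)
    exact ⟨k, by rw [Set.mem_preimage, hk]; exact hz, hk⟩
  have hSR' : ∀ c ∈ κ ⁻¹' S, ∃ s ∈ R, ∀ v : D, c • v = s * v := by
    intro c hc
    refine ⟨κ c, hSR hc, fun v => ?_⟩
    rw [hsm]
    exact (Subring.mem_center_iff.1 (hSc hc)) v
  have hli : ∃ v : Fin (d + 1) → D, LinearIndependent K v := by
    by_cases hfin : Module.Finite K D
    · exfalso
      apply hinf
      let B := Module.Basis.ofVectorSpace (Subring.center D) D
      by_cases hι : Finite (Module.Basis.ofVectorSpaceIndex (Subring.center D) D)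
      · exact Module.Finite.of_basis B
      · exfalso
        rw [not_finite_iff_infinite] at hι
        have h1 : LinearIndependent K (fun i => Lm hcomm (B i)) := by
          rw [linearIndependent_iff']
          intro s g hg i hi
          have h2 : ∀ v : D, ∑ i ∈ s, B i * v * κ (g i) = 0 := by
            intro v
            have h3 := congrArg (fun f : Module.End K D => f v) hg
            simp only [LinearMap.sum_apply, LinearMap.smul_apply, Lm_apply, hsm,
              LinearMap.zero_apply] at h3
            exact h3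
          have h4 := mul_indep B.linearIndependent s (fun i => κ (g i)) h2 i hi
          exact (map_eq_zero κ).1 h4
        let n := Module.finrank K (Module.End K D)
        let f : Fin (n + 1) ↪ Module.Basis.ofVectorSpaceIndex (Subring.center D) D :=
          (Fin.valEmbedding).trans (Infinite.natEmbedding _)
        have h5 := (h1.comp f f.injective).fintype_card_le_finrank
        rw [Fintype.card_fin] at h5
        omega
    · let B := Module.Basis.ofVectorSpace K D
      have hι : Infinite (Module.Basis.ofVectorSpaceIndex K D) := by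
        rw [← not_finite_iff_infinite]
        intro h
        exact hfin (Module.Finite.of_basis B)
      let f : Fin (d + 1) ↪ Module.Basis.ofVectorSpaceIndex K D :=
        (Fin.valEmbedding).trans (Infinite.natEmbedding _)
      exact ⟨_, B.linearIndependent.comp f f.injective⟩
  obtain ⟨v, hv⟩ := hli
  exact cap_ne_zero_of_li hcomm hmax R hR' (κ ⁻¹' S) hS' hSR' hv

/-- **Unbounded degrees**: a subring `R` spanning `D` over the center and containing infinitely
many central elements has nonvanishing Capelli expressions of every degree. -/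
theorem exists_cap_ne_zero (hinf : ¬ Module.Finite (Subring.center D) D) (R : Subring D)
    (hR : Submodule.span (Subring.center D) (R : Set D) = ⊤) (S : Set D) (hS : S.Infinite)
    (hSR : S ⊆ R) (hSc : S ⊆ Subring.center D) (d : ℕ) :
    ∃ r ∈ R, ∃ b : Fin d → D, (∀ i, b i ∈ R) ∧ cap r b ≠ 0 := by
  obtain ⟨M, hM1, hM2⟩ := exists_max_comm D
  have hcl : ∀ c : D, c ∈ Subring.centralizer M ↔ c ∈ M := by
    intro c
    rw [Subring.mem_centralizer_iff]
    exact ⟨fun h => hM2 c fun a ha => (h a ha).symm, fun h a ha => hM1 a ha c h⟩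
  let K0 : Subring D := Subring.centralizer M
  let iC : CommRing K0 :=
    { (inferInstance : Ring K0) with
      mul_comm := fun a b => Subtype.ext (hM1 _ ((hcl _).1 a.2) _ ((hcl _).1 b.2)) }
  have hF : @IsField K0 iC.toSemiring := by
    refine @IsField.mk K0 iC.toSemiring ⟨0, 1, ?_⟩ mul_comm ?_
    · intro h
      exact zero_ne_one (congrArg Subtype.val h)
    · intro a ha
      have ha' : (a : D) ≠ 0 := fun h => ha (Subtype.ext h)
      refine ⟨⟨(a : D)⁻¹, ?_⟩, Subtype.ext (mul_inv_cancel₀ ha')⟩
      rw [Subring.mem_centralizer_iff]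
      intro m hm
      have h1 := (Subring.mem_centralizer_iff.1 a.2) m hm
      exact ((Commute.inv_right₀ (show Commute m (a : D) from h1)).eq)
  let iF : Field K0 := @IsField.toField K0 iC.toRing hF
  let κ : @RingHom K0 D iF.toSemiring.toNonAssocSemiring _ :=
    { toFun := Subtype.val
      map_one' := rfl
      map_mul' := fun _ _ => rfl
      map_zero' := rfl
      map_add' := fun _ _ => rfl }
  refine @exists_cap_abs D _ K0 iF κ ?_ hinf R hR S hS hSR hSc d
  intro c hc
  refine ⟨⟨c, (hcl c).2 (hM2 c fun a ha => hc ⟨a, (hcl a).2 ha⟩)⟩, rfl⟩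

end maxfield

end P199U
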