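import Vale.Agent.P199.H615.Main
import Mathlib.Algebra.Polynomial.Cardinal

/-!
# P199: no countable universal object
-/

namespace P199U

open Module P199K P199H
open Vale.Agent.P199.H (trD)

theorem countable_poly (k : Type) [Field k] [Countable k] : Countable (Polynomial k) := by
  rw [← Cardinal.mk_le_aleph0_iff]
  exact Polynomial.cardinalMk_le_max.trans (max_le Cardinal.mk_le_aleph0 le_rfl)

theorem countable_frac (R : Type) [CommRing R] [IsDomain R] [Countable R] :
    Countable (FractionRing R) := by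
  apply Function.Surjective.countable
    (f := fun p : R × nonZeroDivisors R => (Localization.mk p.1 p.2 : FractionRing R))
  intro a
  induction a using Localization.induction_on with
  | H p => exact ⟨p, rfl⟩

/-- powers are dependent beyond the degree -/
theorem not_li_powers {F D : Type} [Field F] [DivisionRing D] [Algebra F D] {a : D}
    (ha : IsAlgebraic F a) {d : ℕ} (hd : (minpoly F a).natDegree ≤ d) :
    ¬ LinearIndependent F (fun i : Fin (d + 1) => a ^ (i : ℕ)) := by
  intro hli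
  rw [Fintype.linearIndependent_iff] at hli
  have h1 : ∑ i : Fin (d + 1), (minpoly F a).coeff i • a ^ (i : ℕ) = 0 := by
    have h2 := minpoly.aeval F a
    rw [Polynomial.aeval_eq_sum_range' (n := d + 1) (by omega), Finset.sum_range] at h2
    exact h2
  have h3 := hli (fun i => (minpoly F a).coeff i) h1
    ⟨(minpoly F a).natDegree, by omega⟩
  have h4 : (minpoly F a).leadingCoeff = 1 := minpoly.monic ha.isIntegral
  rw [Polynomial.leadingCoeff] at h4
  exact one_ne_zero (h4.symm.trans h3)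

/-- interleaving of two sequences -/
def ilv {X : Type} (a b : ℕ → X) (n : ℕ) : X := if n % 2 = 0 then a (n / 2) else b (n / 2)

theorem ilv_even {X : Type} (a b : ℕ → X) (n : ℕ) : ilv a b (2 * n) = a n := by
  unfold ilv
  rw [if_pos (by omega)]
  congr 1
  omega

theorem ilv_odd {X : Type} (a b : ℕ → X) (n : ℕ) : ilv a b (2 * n + 1) = b n := by
  unfold ilv
  rw [if_neg (by omega)]
  congr 1
  omega

/-- **Prescribed degrees**, for polynomials over `k₀` in the generators, and for integral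
polynomials in the generators and a transcendental central element `z`. -/
theorem prescribed {k₀ : Type} [Field k₀] [Countable k₀] (h2 : (2 : k₀) ≠ 0)
    (w : ℕ → FreeAlgebra k₀ (Fin 2)) (q : ℕ → FreeAlgebra ℤ (Fin 3)) :
    ∃ (F D : Type) (_ : Field F) (_ : Countable F) (_ : DivisionRing D) (_ : Algebra k₀ F)
      (_ : Algebra F D) (_ : Algebra k₀ D) (_ : IsScalarTower k₀ F D) (x y : D) (z : F)
      (T : D →ₗ[F] F),
      (∀ a : D, IsAlgebraic F a) ∧ Algebra.adjoin F ({x, y} : Set D) = ⊤ ∧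
        ¬ Module.Finite F D ∧ (∀ a : D, ∃ m : ℕ, (minpoly F a).natDegree = 2 ^ m) ∧
        T 1 = 1 ∧ (∀ a b, T (a * b) = T (b * a)) ∧
        (∀ j, (minpoly F (FreeAlgebra.lift k₀ ![x, y] (w j))).natDegree ≤ 2 ^ (2 * j + 3)) ∧
        (∀ j, (minpoly F (FreeAlgebra.lift ℤ ![x, y, algebraMap F D z] (q j))).natDegree ≤
          2 ^ (2 * (2 * j) + 1 + 3)) ∧
        Set.Infinite (Set.range fun n : ℕ => z ^ n) := by
  have hc1 := countable_poly k₀
  have hc2 := countable_frac (Polynomial k₀)
  let k₁ := FractionRing (Polynomial k₀)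
  have hc3 : Countable k₁ := hc2
  have hc4 := countable_algebraicClosure k₁
  let 𝕜 := AlgebraicClosure k₁
  have hc5 : Countable 𝕜 := hc4
  let φ : k₀ →+* 𝕜 := (algebraMap k₁ 𝕜).comp
    ((algebraMap (Polynomial k₀) k₁).comp Polynomial.C)
  let z : 𝕜 := algebraMap k₁ 𝕜 (algebraMap (Polynomial k₀) k₁ Polynomial.X)
  have h2' : (2 : 𝕜) ≠ 0 := by
    intro h
    have h3 : φ 2 = 0 := by rw [map_ofNat]; exact h
    exact h2 ((map_eq_zero φ).1 h3)
  have hz : Function.Injective (fun n : ℕ => z ^ n) := by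
    intro n m hnm
    have h3 : algebraMap k₁ 𝕜 (algebraMap (Polynomial k₀) k₁ (Polynomial.X ^ n)) =
        algebraMap k₁ 𝕜 (algebraMap (Polynomial k₀) k₁ (Polynomial.X ^ m)) := by
      rw [map_pow, map_pow, map_pow, map_pow]
      exact hnm
    have h4 := (IsFractionRing.injective (Polynomial k₀) k₁) ((algebraMap k₁ 𝕜).injective h3)
    have h5 := congrArg Polynomial.natDegree h4
    rwa [Polynomial.natDegree_X_pow, Polynomial.natDegree_X_pow] at h5
  obtain ⟨en, hen⟩ := exists_surjective_nat (TExp 𝕜)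
  choose tw htw using exists_texp φ (![TExp.x, TExp.y] : Fin 2 → TExp 𝕜)
  choose tq htq using exists_texp (Int.castRingHom 𝕜)
    (![TExp.x, TExp.y, TExp.const z] : Fin 3 → TExp 𝕜)
  obtain ⟨F, D, i1, i2, i3, i4, i5, x, y, T, h3, h4, h5, h6, h7, h8, h9⟩ :=
    perfect2 h2' (ilv (fun j => tw (w j)) (ilv (fun j => tq (q j)) en)) (by
      intro Ψ
      obtain ⟨j, hj⟩ := hen Ψ
      exact ⟨2 * (2 * j + 1) + 1, (ilv_odd _ _ _).trans ((ilv_odd _ _ j).trans hj)⟩)
  let iF : Algebra k₀ F := ((algebraMap 𝕜 F).comp φ).toAlgebra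
  let iD : Algebra k₀ D := ((algebraMap F D).comp (algebraMap k₀ F)).toAlgebra'
    (fun c a => Algebra.commutes (algebraMap k₀ F c) a)
  have iT : IsScalarTower k₀ F D := IsScalarTower.of_algebraMap_eq fun _ => rfl
  refine ⟨F, D, i1, i2, i4, iF, i5, iD, iT, x, y, algebraMap 𝕜 F z, T, h3, h4, h5, h6, h7, h8,
    fun j => ?_, fun j => ?_, ?_⟩
  · have h10 := h9 (2 * j)
    rw [ilv_even] at h10
    rw [htw (w j) D _ _ _ _ _ (FreeAlgebra.lift k₀ ![x, y]).toRingHom
      (by
        intro i
        show FreeAlgebra.lift k₀ ![x, y] (FreeAlgebra.ι k₀ i) = _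
        rw [FreeAlgebra.lift_ι_apply]
        fin_cases i <;> rfl)
      (by
        intro a
        show FreeAlgebra.lift k₀ ![x, y] (algebraMap k₀ _ a) = _
        rw [AlgHom.commutes]; rfl)] at h10
    exact h10
  · have h10 := h9 (2 * (2 * j) + 1)
    rw [ilv_odd, ilv_even] at h10
    rw [htq (q j) D _ _ _ _ _
      (FreeAlgebra.lift ℤ ![x, y, algebraMap F D (algebraMap 𝕜 F z)]).toRingHom
      (by
        intro i
        show FreeAlgebra.lift ℤ ![x, y, algebraMap F D (algebraMap 𝕜 F z)]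
          (FreeAlgebra.ι ℤ i) = _
        rw [FreeAlgebra.lift_ι_apply]
        fin_cases i <;> rfl)
      (by
        intro a
        show FreeAlgebra.lift ℤ ![x, y, algebraMap F D (algebraMap 𝕜 F z)]
          (algebraMap ℤ _ a) = _
        rw [AlgHom.commutes]
        simp)] at h10
    exact h10
  · apply Set.infinite_range_of_injective
    intro n m hnm
    have h10 : algebraMap 𝕜 F (z ^ n) = algebraMap 𝕜 F (z ^ m) := by
      rw [map_pow (algebraMap 𝕜 F) z n, map_pow (algebraMap 𝕜 F) z m]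
      exact hnm
    exact hz ((algebraMap 𝕜 F).injective h10)

/-- **No countable universal object.** -/
theorem universal {k₀ : Type} [Field k₀] [Countable k₀] (h2 : (2 : k₀) ≠ 0)
    (w : ℕ → FreeAlgebra k₀ (Fin 2)) (A : ℕ → Type) [∀ n, Ring (A n)] [∀ n, Countable (A n)] :
    ∃ (F D : Type) (_ : Field F) (_ : Countable F) (_ : DivisionRing D) (_ : Algebra k₀ F)
      (_ : Algebra F D) (_ : Algebra k₀ D) (_ : IsScalarTower k₀ F D) (x y : D)
      (T : D →ₗ[F] F),
      (∀ a : D, IsAlgebraic F a) ∧ Algebra.adjoin F ({x, y} : Set D) = ⊤ ∧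
        ¬ Module.Finite F D ∧ (∀ a : D, ∃ m : ℕ, (minpoly F a).natDegree = 2 ^ m) ∧
        T 1 = 1 ∧ (∀ a b, T (a * b) = T (b * a)) ∧
        (∀ j, (minpoly F (FreeAlgebra.lift k₀ ![x, y] (w j))).natDegree ≤ 8 * 4 ^ j) ∧
        ∀ (n : ℕ) (f : D →+* A n), ¬ Function.Injective f := by
  classical
  let P := FreeAlgebra ℤ (Fin 3)
  let I := Σ n, (Fin 3 → A n)
  have hI : Nonempty I := ⟨⟨0, fun _ => 0⟩⟩
  obtain ⟨s, hs⟩ := exists_surjective_nat I
  let e : ∀ i : I, P →ₐ[ℤ] A i.1 := fun i => FreeAlgebra.lift ℤ i.2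
  let bd : ℕ → ℕ := fun m => 2 ^ (2 * (2 * m) + 1 + 3)
  -- the diagonal sequence
  have hdiag : ∀ m, ∃ p : P, (∀ d, ∃ (p : P) (b : Fin d → P), e (s m) (cap p b) ≠ 0) →
      ∃ b : Fin (bd m) → P, e (s m) (cap p b) ≠ 0 := by
    intro m
    by_cases hu : ∀ d, ∃ (p : P) (b : Fin d → P), e (s m) (cap p b) ≠ 0
    · obtain ⟨p, b, hb⟩ := hu (bd m)
      exact ⟨p, fun _ => ⟨b, hb⟩⟩
    · exact ⟨0, fun h => absurd h hu⟩
  choose dg hdg using hdiag
  obtain ⟨F, D, i1, i2, i3, i4, i5, i6, i7, x, y, z, T, h3, h4, h5, h6, h7, h8, h9, h9', h10⟩ :=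
    prescribed h2 w dg
  refine ⟨F, D, i1, i2, i3, i4, i5, i6, i7, x, y, T, h3, h4, h5, h6, h7, h8, fun j => ?_, ?_⟩
  · refine (h9 j).trans (le_of_eq ?_)
    rw [pow_add, pow_mul]
    norm_num
    ring
  · intro n f hf
    let eD : P →ₐ[ℤ] D := FreeAlgebra.lift ℤ ![x, y, algebraMap F D z]
    obtain ⟨m, hm⟩ := hs ⟨n, f ∘ ![x, y, algebraMap F D z]⟩
    have he : ∀ p : P, f (eD p) = e ⟨n, f ∘ ![x, y, algebraMap F D z]⟩ p := by
      intro p
      have h13 : f.toIntAlgHom.comp eD = e ⟨n, f ∘ ![x, y, algebraMap F D z]⟩ := by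
        apply FreeAlgebra.hom_ext
        funext i
        show f (eD (FreeAlgebra.ι ℤ i)) = FreeAlgebra.lift ℤ (f ∘ ![x, y, algebraMap F D z])
          (FreeAlgebra.ι ℤ i)
        rw [FreeAlgebra.lift_ι_apply, FreeAlgebra.lift_ι_apply]
        rfl
      exact congrArg (fun g => g p) h13
    have hmapD : ∀ {d : ℕ} (p : P) (b : Fin d → P), eD (cap p b) = cap (eD p) (fun i => eD (b i)) :=
      fun p b => map_cap eD.toRingHom p b
    have hcen := not_finite_center' h3 {x, y} (Set.toFinite _) h4 h5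
    have hFc : ∀ c : F, algebraMap F D c ∈ Subring.center D := fun c =>
      Subring.mem_center_iff.2 fun g => (Algebra.commutes c g).symm
    -- the degrees are unbounded
    have hunb : ∀ d, ∃ (p : P) (b : Fin d → P), e (s m) (cap p b) ≠ 0 := by
      intro d
      let R : Subring D := eD.toRingHom.range
      have hRz : algebraMap F D z ∈ R := ⟨FreeAlgebra.ι ℤ 2, by
        show FreeAlgebra.lift ℤ _ (FreeAlgebra.ι ℤ 2) = _
        rw [FreeAlgebra.lift_ι_apply]; rfl⟩
      have hRx : x ∈ R := ⟨FreeAlgebra.ι ℤ 0, by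
        show FreeAlgebra.lift ℤ _ (FreeAlgebra.ι ℤ 0) = _
        rw [FreeAlgebra.lift_ι_apply]; rfl⟩
      have hRy : y ∈ R := ⟨FreeAlgebra.ι ℤ 1, by
        show FreeAlgebra.lift ℤ _ (FreeAlgebra.ι ℤ 1) = _
        rw [FreeAlgebra.lift_ι_apply]; rfl⟩
      have hspan : Submodule.span (Subring.center D) (R : Set D) = ⊤ := by
        have h14 : Subalgebra.toSubmodule (Algebra.adjoin (Subring.center D) (R : Set D)) =
            Submodule.span (Subring.center D) (R : Set D) := by
          rw [Algebra.adjoin_eq_span]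
          congr 1
          have h15 : (R : Set D) = (R.toSubmonoid : Set D) := rfl
          rw [h15, Submonoid.closure_eq]
        rw [← h14, ← Algebra.top_toSubmodule]
        congr 1
        rw [← top_le_iff, ← hcen.2.1]
        apply Algebra.adjoin_mono
        rintro a (rfl | ha)
        · exact hRx
        · rw [Set.mem_singleton_iff] at ha
          rw [ha]; exact hRy
      have hS : (Set.range fun n : ℕ => algebraMap F D z ^ n).Infinite := by
        have h16 := h10.image ((algebraMap F D).injective.injOn)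
        refine h16.mono ?_
        rintro _ ⟨_, ⟨n, rfl⟩, rfl⟩
        exact ⟨n, (map_pow (algebraMap F D) z n).symm⟩
      obtain ⟨r, ⟨p, hp⟩, b, hb, hne⟩ := exists_cap_ne_zero hcen.2.2 R hspan _ hS
        (by
          rintro _ ⟨n, rfl⟩
          exact pow_mem hRz n)
        (by
          rintro _ ⟨n, rfl⟩
          exact pow_mem (hFc z) n) d
      choose b' hb' using hb
      refine ⟨p, b', ?_⟩
      rw [hm, ← he, hmapD]
      intro h0
      rw [← map_zero f] at h0
      have h17 := hf h0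
      apply hne
      rw [← h17]
      have h18 : r = eD p := hp.symm
      have h19 : b = fun i => eD (b' i) := funext fun i => (hb' i).symm
      rw [h18, h19]
    obtain ⟨b, hb⟩ := hdg m hunb
    apply hb
    rw [hm, ← he, hmapD]
    rw [cap_eq_zero (not_li_powers (h3 _) (h9' m)), map_zero]

end P199U
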