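import Vale.Agent.P199.H128.K6
import Vale.Agent.P199.H615.Dens
import Mathlib.Algebra.FreeAlgebra

/-!
# P199: prescribed degrees, traces, no countable universal object

The limit argument of `H128.K5` with the trace and with the bounds of the degrees of prescribed
trace polynomials.
-/

set_option linter.all false

section

open Finset

namespace P199K

open Vale.Agent.P199.H P199H

section core

variable {𝕜 : Type} [Field 𝕜] {L D : Type} [Field L] [DivisionRing D] [Algebra L D]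
  {c : 𝕜 →+* L} {τ : D →ₗ[L] L} {x y : D}

/-- the core of the limit argument, with the trace and the embedding -/
theorem core2 [Countable 𝕜] (hτ : τ 1 = 1) (hτc : ∀ u v, τ (u * v) = τ (v * u))
    (halg : ∀ Φ : TExp 𝕜, IsAlgebraic L (TExp.eval ((algebraMap L D).comp c) (trD τ) x y Φ))
    (hinf : ¬ Module.Finite L (Algebra.adjoin L ({x, y} : Set D)))
    (hdeg : ∀ w : D, IsAlgebraic L w → ∃ m : ℕ, (minpoly L w).natDegree = 2 ^ m) :
    ∃ (F A : Type) (_ : Field F) (_ : Countable F) (_ : Algebra 𝕜 F) (_ : DivisionRing A)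
      (_ : Algebra F A) (x' y' : A) (T : A →ₗ[F] F) (i : A →+* D) (j : F →+* L),
      (∀ a : A, IsAlgebraic F a) ∧ Algebra.adjoin F ({x', y'} : Set A) = ⊤ ∧
        ¬ Module.Finite F A ∧ (∀ a : A, ∃ m : ℕ, (minpoly F a).natDegree = 2 ^ m) ∧
        T 1 = 1 ∧ (∀ a b, T (a * b) = T (b * a)) ∧
        i x' = x ∧ i y' = y ∧ (∀ f, i (algebraMap F A f) = algebraMap L D (j f)) ∧
        (∀ q, j (algebraMap 𝕜 F q) = c q) ∧ (∀ a, j (T a) = τ (i a)) ∧
        ∀ a, (minpoly F a).natDegree = (minpoly L (i a)).natDegree := by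
  classical
  have hal : ∀ a : A0 c τ x y, IsAlgebraic (F0 c τ x y) a := fun a =>
    (isAlgebraic_algHom_iff (A0 c τ x y).val Subtype.val_injective).1
      (isAlgebraic_A0 hτ halg a.2)
  have hunit : ∀ a : A0 c τ x y, IsUnit a ∨ a = 0 := by
    intro a
    by_cases h0 : a = 0
    · exact Or.inr h0
    · left
      have hne : (a : D) ≠ 0 := fun h => h0 (Subtype.ext h)
      have hint : IsIntegral (F0 c τ x y) (a : D) := (isAlgebraic_A0 hτ halg a.2).isIntegral
      have hinv : (a : D)⁻¹ ∈ A0 c τ x y :=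
        (Algebra.adjoin_le (Set.singleton_subset_iff.2 a.2)) hint.inv_mem_adjoin
      exact ⟨⟨a, ⟨_, hinv⟩, Subtype.ext (mul_inv_cancel₀ hne),
        Subtype.ext (inv_mul_cancel₀ hne)⟩, rfl⟩
  let inst : DivisionRing (A0 c τ x y) := DivisionRing.ofIsUnitOrEqZero hunit
  have hx : x ∈ A0 c τ x y := Algebra.subset_adjoin (by simp)
  have hy : y ∈ A0 c τ x y := Algebra.subset_adjoin (by simp)
  have hdeg1 : ∀ a : A0 c τ x y,
      (minpoly (F0 c τ x y) a).natDegree = (minpoly L (a : D)).natDegree := by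
    intro a
    rw [← natDegree_A0 hτ halg a.2]
    have h1 := minpoly.algHom_eq (A0 c τ x y).val Subtype.val_injective a
    exact congrArg Polynomial.natDegree h1.symm
  let T : A0 c τ x y →ₗ[F0 c τ x y] F0 c τ x y :=
    { toFun := fun a => ⟨τ (a : D), tau_mem c τ x y a.2⟩
      map_add' := fun a b => Subtype.ext (by
        show τ ((a : D) + (b : D)) = τ (a : D) + τ (b : D)
        exact map_add τ _ _)
      map_smul' := fun f a => Subtype.ext (by
        show τ ((f : L) • (a : D)) = (f : L) * τ (a : D)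
        rw [map_smul, smul_eq_mul]) }
  refine ⟨F0 c τ x y, A0 c τ x y, inferInstance, countable_F0,
    (c.codRestrict (F0 c τ x y) (const_mem_F0 c τ x y)).toAlgebra, inst, inferInstance,
    ⟨x, hx⟩, ⟨y, hy⟩, T, (A0 c τ x y).val.toRingHom, (F0 c τ x y).subtype,
    hal, ?_, ?_, ?_, ?_, ?_, rfl, rfl, fun _ => rfl, fun _ => rfl, fun _ => rfl, hdeg1⟩
  · have h1 : (({⟨x, hx⟩, ⟨y, hy⟩} : Set (A0 c τ x y))) =
        ((↑) : A0 c τ x y → D) ⁻¹' {x, y} := by
      ext a
      simp [Subtype.ext_iff]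
    rw [h1]
    exact Algebra.adjoin_adjoin_coe_preimage
  · intro hfin
    apply hinf
    have hfg : (Subalgebra.toSubmodule (A0 c τ x y)).FG := Module.Finite.iff_fg.1 hfin
    obtain ⟨G, hG⟩ := hfg
    have h1 : Subalgebra.toSubmodule (Algebra.adjoin L ({x, y} : Set D)) ≤
        Submodule.span L (G : Set D) := by
      rw [Algebra.adjoin_eq_span, Submodule.span_le]
      intro w hw
      have hw' : w ∈ A0 c τ x y := by
        have h2 : (Submonoid.closure ({x, y} : Set D)) ≤ (A0 c τ x y).toSubmonoid :=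
          Submonoid.closure_le.2 Algebra.subset_adjoin
        exact h2 hw
      have h3 : w ∈ Submodule.span (F0 c τ x y) (G : Set D) := by
        rw [hG]
        exact hw'
      exact Submodule.span_le_restrictScalars (F0 c τ x y) L _ h3
    have h2 : Module.Finite L (Submodule.span L (G : Set D)) :=
      FiniteDimensional.span_finset L G
    exact Submodule.finiteDimensional_of_le h1
  · intro a
    obtain ⟨m, hm⟩ := hdeg (a : D) (isAlgebraicL_A0 halg a.2)
    exact ⟨m, (hdeg1 a).trans hm⟩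
  · exact Subtype.ext hτ
  · intro a b
    exact Subtype.ext (hτc (a : D) (b : D))

end core

/-- **The limit** with the trace and with the degrees of the prescribed trace polynomials. -/
theorem limit2 {𝕜 : Type} [Field 𝕜] [Countable 𝕜] (d : ℕ → ℕ) (Φ : ℕ → TExp 𝕜)
    (hΦ : Function.Surjective Φ)
    (H : ∀ n : ℕ, ∃ (L D : Type) (_ : Field L) (_ : DivisionRing D)
      (_ : Algebra L D) (c : 𝕜 →+* L) (τ : D →ₗ[L] L) (x y : D), τ 1 = 1 ∧
      (∀ u v, τ (u * v) = τ (v * u)) ∧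
      (∀ j ≤ n, ∃ e : Fin (d j + 1) → L, e ≠ 0 ∧
        ∑ i, e i • (TExp.eval ((algebraMap L D).comp c) (trD τ) x y (Φ j)) ^ (i : ℕ) = 0) ∧
      n ≤ Module.finrank L (Algebra.adjoin L ({x, y} : Set D)) ∧
      ∀ w : D, IsAlgebraic L w ∧ ∃ m : ℕ, (minpoly L w).natDegree = 2 ^ m) :
    ∃ (F A : Type) (_ : Field F) (_ : Countable F) (_ : Algebra 𝕜 F) (_ : DivisionRing A)
      (_ : Algebra F A) (x y : A) (T : A →ₗ[F] F),
      (∀ a : A, IsAlgebraic F a) ∧ Algebra.adjoin F ({x, y} : Set A) = ⊤ ∧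
        ¬ Module.Finite F A ∧ (∀ a : A, ∃ m : ℕ, (minpoly F a).natDegree = 2 ^ m) ∧
        T 1 = 1 ∧ (∀ a b, T (a * b) = T (b * a)) ∧
        ∀ j, (minpoly F (TExp.eval ((algebraMap F A).comp (algebraMap 𝕜 F)) (trD T) x y
          (Φ j))).natDegree ≤ d j := by
  choose L D iL iD iA c τ x y hτ hτc hj hn hdeg using H
  have hrel : ∀ j, PolyRel (UP L) (d j)
      (TExp.eval ((algebraMap (UP L) (UP D)).comp (cUP c)) (trD (tauUP τ)) (pr D x) (pr D y)
        (Φ j)) := by
    intro j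
    rw [eval_pr, polyRel_pr]
    have hev : ∀ᶠ n in UU, j ≤ n :=
      (Filter.eventually_ge_atTop j).filter_mono Nat.hyperfilter_le_atTop
    exact hev.mono fun n hjn => (polyRel_iff _ _).2 (hj n j hjn)
  have halg : ∀ j, IsAlgebraic (UP L)
      (TExp.eval ((algebraMap (UP L) (UP D)).comp (cUP c)) (trD (tauUP τ)) (pr D x) (pr D y)
        (Φ j)) := by
    intro j
    rw [eval_pr]
    exact isAlgebraic_pr _ (d j) j fun n hn => hj n j hn
  obtain ⟨F, A, i1, i2, i3, i4, i5, x', y', T, i, j, h1, h2, h3, h4, h5, h6, h7, h8, h9, h10,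
      h11, h12⟩ := core2 (c := cUP c) (L := UP L) (D := UP D) (τ := tauUP τ) (x := pr D x)
    (y := pr D y) (by
      rw [← map_one (pr D), tauUP_pr, ← map_one (pr L)]
      congr 1
      funext n
      exact hτ n) (by
      intro u v
      obtain ⟨u, rfl⟩ := pr_surjective D u
      obtain ⟨v, rfl⟩ := pr_surjective D v
      rw [← map_mul, ← map_mul, tauUP_pr, tauUP_pr]
      congr 1
      funext n
      exact hτc n (u n) (v n)) (by
      intro Ψ
      obtain ⟨j, rfl⟩ := hΦ Ψ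
      exact halg j) (not_finite_pr x y hn) (natDegree_pr hdeg)
  refine ⟨F, A, i1, i2, i3, i4, i5, x', y', T, h1, h2, h3, h4, h5, h6, fun k => ?_⟩
  rw [h12]
  have h13 : i (TExp.eval ((algebraMap F A).comp (algebraMap 𝕜 F)) (trD T) x' y' (Φ k)) =
      TExp.eval ((algebraMap (UP L) (UP D)).comp (cUP c)) (trD (tauUP τ)) (pr D x) (pr D y)
        (Φ k) := by
    rw [TExp.map_eval (c := (algebraMap F A).comp (algebraMap 𝕜 F)) (t := trD T) (u := x')
      (v := y') (trD (tauUP τ)) i (by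
        intro a
        unfold trD
        rw [h9, h11]) (Φ k), h7, h8]
    congr 1
    ext q
    show i (algebraMap F A (algebraMap 𝕜 F q)) = algebraMap (UP L) (UP D) (cUP c q)
    rw [h9, h10]
  rw [h13]
  exact (polyRel_iff_natDegree (halg k) _).1 (hrel k)

end P199K

end

section

namespace P199K

open MvPolynomial Module P199H
open Vale.Agent.P199.H (trD)

/-- The levels, with the trace property. -/
theorem level2 {𝕜 : Type} [Field 𝕜] [PerfectField 𝕜] (h𝕜 : (2 : 𝕜) ≠ 0) (Φ : ℕ → TExp 𝕜) (n : ℕ) :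
    ∃ (L D : Type) (_ : Field L) (_ : DivisionRing D)
      (_ : Algebra L D) (c : 𝕜 →+* L) (τ : D →ₗ[L] L) (x y : D), τ 1 = 1 ∧
      (∀ u v, τ (u * v) = τ (v * u)) ∧
      (∀ j ≤ n, ∃ e : Fin (2 ^ (j + 3) + 1) → L, e ≠ 0 ∧
        ∑ i, e i • (TExp.eval ((algebraMap L D).comp c) (trD τ) x y (Φ j)) ^ (i : ℕ) = 0) ∧
      n ≤ Module.finrank L (Algebra.adjoin L ({x, y} : Set D)) ∧
      ∀ w : D, IsAlgebraic L w ∧ ∃ m : ℕ, (minpoly L w).natDegree = 2 ^ m := by
  obtain ⟨P, hP, hH, hLC, hc, hrel⟩ := L8_of_L5 h𝕜 l5Stmt Φ n (n + 3) (by omega) le_rfl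
  have hs : ∀ i, s0 i ∉ P := fun i =>
    X_notMem_of_good w0 _ hP hH hLC (Sum.inr i) (by rw [w0_s]; exact two_dvd_dotTh_single i)
  haveI := hP
  let L := FractionRing (MvPolynomial (J0 (n + 3)) 𝕜 ⧸ P)
  let φ : MvPolynomial (J0 (n + 3)) 𝕜 →+* L :=
    (algebraMap (MvPolynomial (J0 (n + 3)) 𝕜 ⧸ P) L).comp (Ideal.Quotient.mk P)
  haveI hNZ := l5Stmt0 (𝕜 := 𝕜) (n + 3) (by omega) P hP hH hLC
  haveI hNZ' : NoZeroDivisors (Tw (n + 3) L (fun i => φ (s0 i))) :=
    Tw.noZeroDivisors_frac (s := fun i => Ideal.Quotient.mk P (s0 i)) (fun _ => rfl)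
  letI iD : DivisionRing (Tw (n + 3) L (fun i => φ (s0 i))) := Tw.divisionRing
  have hdeg := natDegree_two_pow (L := L) (D := Tw (n + 3) L (fun i => φ (s0 i)))
    (k := 2 * (n + 3)) Tw.finrank_eq
  refine ⟨L, Tw (n + 3) L (fun i => φ (s0 i)), inferInstance, iD, inferInstance,
    φ.comp MvPolynomial.C, Tw.tau, (φ sigma0)⁻¹ • Tw.map φ (fun _ => rfl) xgen,
    (φ sigma0)⁻¹ • Tw.map φ (fun _ => rfl) ygen, Tw.tau_one, Tw.tau_mul_comm, ?_, ?_, hdeg⟩
  · intro j hj
    exact (polyRel_iff _ _).1 (hrel L φ (fun p hp => by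
      change algebraMap _ L (Ideal.Quotient.mk P p) = 0
      rw [Ideal.Quotient.eq_zero_iff_mem.2 hp, map_zero]) j hj)
  · have h1 := dim_bound h𝕜 P hs L φ (fun _ => rfl)
    have h2 := polySys_c_add_td w0 (w0_ne_zero (K := n + 3) (by omega)) P
    rw [card_J0] at h2
    change n ≤ Module.finrank L (Algebra.adjoin L
      ({(φ sigma0)⁻¹ • Tw.map φ (fun _ => rfl) xgen, (φ sigma0)⁻¹ • Tw.map φ (fun _ => rfl) ygen} :
        Set (Tw (n + 3) L (fun i => φ (s0 i)))))
    revert h1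
    generalize Module.finrank L (Algebra.adjoin L
      ({(φ sigma0)⁻¹ • Tw.map φ (fun _ => rfl) xgen, (φ sigma0)⁻¹ • Tw.map φ (fun _ => rfl) ygen} :
        Set (Tw (n + 3) L (fun i => φ (s0 i))))) = G
    intro h1
    by_contra hG
    push Not at hG
    have h3 : 2 ^ (2 * (n + 3)) = 64 * (2 ^ n) ^ 2 := by
      rw [← pow_mul, mul_add, pow_add, mul_comm n 2]
      norm_num
      ring
    have h4 : G ^ 2 ≤ (2 ^ n) ^ 2 :=
      Nat.pow_le_pow_left (hG.le.trans (Nat.lt_two_pow_self).le) 2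
    have h5 : 0 < (2 ^ n) ^ 2 := by positivity
    omega

/-- the theorem over a perfect countable field, for a given enumeration of all trace polynomials -/
theorem perfect2 {𝕜 : Type} [Field 𝕜] [PerfectField 𝕜] [Countable 𝕜]
    (h𝕜 : (2 : 𝕜) ≠ 0) (Φ : ℕ → TExp 𝕜) (hΦ : Function.Surjective Φ) :
    ∃ (F A : Type) (_ : Field F) (_ : Countable F) (_ : Algebra 𝕜 F) (_ : DivisionRing A)
      (_ : Algebra F A) (x y : A) (T : A →ₗ[F] F),
      (∀ a : A, IsAlgebraic F a) ∧ Algebra.adjoin F ({x, y} : Set A) = ⊤ ∧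
        ¬ Module.Finite F A ∧ (∀ a : A, ∃ m : ℕ, (minpoly F a).natDegree = 2 ^ m) ∧
        T 1 = 1 ∧ (∀ a b, T (a * b) = T (b * a)) ∧
        ∀ j, (minpoly F (TExp.eval ((algebraMap F A).comp (algebraMap 𝕜 F)) (trD T) x y
          (Φ j))).natDegree ≤ 2 ^ (j + 3) :=
  limit2 (fun j => 2 ^ (j + 3)) Φ hΦ fun n => level2 h𝕜 Φ n

end P199K

end

namespace P199U

open P199K

/-! ### Noncommutative polynomials -/

/-- noncommutative polynomials as trace polynomials -/
theorem exists_texp {k 𝕜 X : Type} [CommRing k] [Field 𝕜] (φ : k →+* 𝕜) (a : X → TExp 𝕜)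
    (p : FreeAlgebra k X) :
    ∃ Ψ : TExp 𝕜, ∀ (D : Type) (_ : Ring D) (c : 𝕜 →+* D) (t : D → D) (u v : D)
      (g : FreeAlgebra k X →+* D), (∀ i, g (FreeAlgebra.ι k i) = TExp.eval c t u v (a i)) →
      (∀ r, g (algebraMap k _ r) = c (φ r)) → TExp.eval c t u v Ψ = g p := by
  induction p using FreeAlgebra.induction with
  | grade0 r => exact ⟨.const (φ r), fun D _ c t u v g _ h => (h r).symm⟩
  | grade1 i => exact ⟨a i, fun D _ c t u v g h _ => (h i).symm⟩
  | mul p q hp hq =>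
    obtain ⟨A, hA⟩ := hp
    obtain ⟨B, hB⟩ := hq
    exact ⟨.mul A B, fun D _ c t u v g h1 h2 => by
      rw [TExp.eval_mul, hA D _ c t u v g h1 h2, hB D _ c t u v g h1 h2, map_mul]⟩
  | add p q hp hq =>
    obtain ⟨A, hA⟩ := hp
    obtain ⟨B, hB⟩ := hq
    exact ⟨.add A B, fun D _ c t u v g h1 h2 => by
      rw [TExp.eval_add, hA D _ c t u v g h1 h2, hB D _ c t u v g h1 h2, map_add]⟩

end P199U
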